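import Mathlib
import Vale.Agent.Lib.P243.CapMain
import Vale.Agent.Lib.P243.R3.Defs
open MeasureTheory Set Vale.Agent.Lib.P243

/-!
P243-R3, job J8 (backup copy by helper34): the strict model bound
`l * area (proj K) < 3 * vol K` for a chord of length `l` from one gain point.
All declarations carry the tag `M3s_` and live in the sub-namespace `H34`.
-/

namespace Vale.Agent.Lib.P243.R3.H34

/-- Area of a homothetic copy in the plane. -/
theorem M3s_vol_hom (c : ℝ × ℝ) (r : ℝ) (P : Set (ℝ × ℝ)) :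
    volume ((fun q : ℝ × ℝ => c + r • (q - c)) '' P) = ENNReal.ofReal (r ^ 2) * volume P := by
  have h : (fun q : ℝ × ℝ => c + r • (q - c)) = AffineMap.homothety c r := by
    funext q
    rw [AffineMap.homothety_apply, vsub_eq_sub, vadd_eq_add, add_comm]
  rw [h, Measure.addHaar_image_homothety]
  have h2 : Module.finrank ℝ (ℝ × ℝ) = 2 := by simp
  rw [h2, abs_of_nonneg (sq_nonneg r)]

/-- The integral of `(1 - t / l) ^ 2` over `(0, l]`. -/
theorem M3s_int (l : ℝ) (hl : 0 < l) :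
    ∫⁻ t in Ioc 0 l, ENNReal.ofReal ((1 - t / l) ^ 2) = ENNReal.ofReal (l / 3) := by
  have hint : IntervalIntegrable (fun t : ℝ => (1 - t / l) ^ 2) volume 0 l :=
    (by fun_prop : Continuous (fun t : ℝ => (1 - t / l) ^ 2)).intervalIntegrable _ _
  have hval : ∫ t in (0:ℝ)..l, (1 - t / l) ^ 2 = l / 3 := by
    have hd : ∀ x ∈ uIcc 0 l, HasDerivAt (fun t : ℝ => -(l / 3) * (1 - t / l) ^ 3)
        ((1 - x / l) ^ 2) x := by
      intro x _
      have h1 : HasDerivAt (fun t : ℝ => 1 - t / l) (-(1 / l)) x := by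
        simpa using ((hasDerivAt_id x).div_const l).const_sub 1
      have h2 : HasDerivAt (fun t : ℝ => -(l / 3) * (1 - t / l) ^ 3)
          (-(l / 3) * ((3 : ℕ) * (1 - x / l) ^ (3 - 1) * -(1 / l))) x :=
        (h1.fun_pow 3).const_mul (-(l / 3))
      refine h2.congr_deriv ?_
      have hl' : l ≠ 0 := hl.ne'
      norm_num
      field_simp
    rw [intervalIntegral.integral_eq_sub_of_hasDerivAt hd hint]
    field_simp
    ring
  rw [← ofReal_integral_eq_lintegral_ofReal]
  · rw [← intervalIntegral.integral_of_le hl.le, hval]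
  · exact (intervalIntegrable_iff_integrableOn_Ioc_of_le hl.le).1 hint
  · exact ae_of_all _ (fun t => sq_nonneg _)

/-- The chord over `o` has length at least `l`. -/
theorem M3s_len_o {K : Set (ℝ × (ℝ × ℝ))} (hK : IsCompact K) (hc : Convex ℝ K) {z0 l : ℝ}
    {o : ℝ × ℝ} (hl : 0 < l) (h0 : (z0, o) ∈ K) (h1 : (z0 + l, o) ∈ K) :
    l ≤ Cap.len K o := by
  have hsub : Icc z0 (z0 + l) ⊆ Cap.fib K o := by
    intro ζ hζ
    have hθ0 : 0 ≤ (ζ - z0) / l := div_nonneg (by linarith [hζ.1]) hl.le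
    have hθ1 : (ζ - z0) / l ≤ 1 := by rw [div_le_one hl]; linarith [hζ.2]
    have h := hc h0 h1 (sub_nonneg.2 hθ1) hθ0 (by ring)
    have he : (1 - (ζ - z0) / l) • ((z0, o) : ℝ × (ℝ × ℝ))
        + ((ζ - z0) / l) • ((z0 + l, o) : ℝ × (ℝ × ℝ)) = (ζ, o) := by
      ext
      · simp only [Prod.fst_add, Prod.smul_fst, smul_eq_mul]
        field_simp
        ring
      · simp only [Prod.snd_add, Prod.smul_snd, Prod.fst_add, Prod.smul_fst, smul_eq_mul]
        ring
      · simp only [Prod.snd_add, Prod.smul_snd, smul_eq_mul]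
        ring
    rw [he] at h
    exact h
  have h2 : ENNReal.ofReal l ≤ volume (Cap.fib K o) := by
    have := measure_mono (μ := volume) hsub
    rwa [Real.volume_Icc, add_sub_cancel_left] at this
  rw [← Cap.ofReal_len hK] at h2
  exact (ENNReal.ofReal_le_ofReal_iff (Cap.len_nonneg o)).1 h2

/-- The homothetic copy of the projection with ratio `1 - t / l` lies in the level set `t`. -/
theorem M3s_lev_ge {K : Set (ℝ × (ℝ × ℝ))} (hK : IsCompact K) (hc : Convex ℝ K) {z0 l : ℝ}
    {o : ℝ × ℝ} (hl : 0 < l) (h0 : (z0, o) ∈ K) (h1 : (z0 + l, o) ∈ K) {t : ℝ} (ht0 : 0 ≤ t)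
    (ht : t ≤ l) :
    (fun q : ℝ × ℝ => o + (1 - t / l) • (q - o)) '' (Prod.snd '' K) ⊆ Cap.lev K t := by
  rintro _ ⟨q, hq, rfl⟩
  beta_reduce
  have ho : o ∈ Prod.snd '' K := ⟨(z0, o), h0, rfl⟩
  have hθ0 : 0 ≤ 1 - t / l := by rw [sub_nonneg, div_le_one hl]; exact ht
  have hθ1 : 1 - t / l ≤ 1 := by linarith [div_nonneg ht0 hl.le]
  have hPc : Convex ℝ (Prod.snd '' K) := hc.linear_image (LinearMap.snd ℝ ℝ (ℝ × ℝ))
  have heq : o + (1 - t / l) • (q - o) = (1 - (1 - t / l)) • o + (1 - t / l) • q := by module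
  have hconc := Cap.len_concave hK hc ho hq (1 - t / l) hθ0 hθ1
  have hlo := M3s_len_o hK hc hl h0 h1
  refine ⟨?_, ?_⟩
  · rw [heq]
    exact hPc ho hq (by linarith) hθ0 (by ring)
  · rw [heq]
    have h3 : t ≤ (1 - (1 - t / l)) * Cap.len K o := by
      have h5 : (1 - (1 - t / l)) = t / l := by ring
      rw [h5]
      calc t = t / l * l := by field_simp
        _ ≤ t / l * Cap.len K o := mul_le_mul_of_nonneg_left hlo (div_nonneg ht0 hl.le)
    have h4 : 0 ≤ (1 - t / l) * Cap.len K q := mul_nonneg hθ0 (Cap.len_nonneg q)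
    linarith

/-- A small homothetic copy of the projection about a point `y` with a long chord lies in a
level set. -/
theorem M3s_gain_sub {K : Set (ℝ × (ℝ × ℝ))} (hK : IsCompact K) (hc : Convex ℝ K)
    {y : ℝ × ℝ} (hy : y ∈ Prod.snd '' K) {θ s : ℝ} (hθ0 : 0 ≤ θ) (hθ1 : θ ≤ 1)
    (hs : s ≤ (1 - θ) * Cap.len K y) :
    (fun q : ℝ × ℝ => y + θ • (q - y)) '' (Prod.snd '' K) ⊆ Cap.lev K s := by
  rintro _ ⟨q, hq, rfl⟩
  beta_reduce
  have hPc : Convex ℝ (Prod.snd '' K) := hc.linear_image (LinearMap.snd ℝ ℝ (ℝ × ℝ))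
  have heq : y + θ • (q - y) = (1 - θ) • y + θ • q := by module
  have hconc := Cap.len_concave hK hc hy hq θ hθ0 hθ1
  refine ⟨?_, ?_⟩
  · rw [heq]
    exact hPc hy hq (by linarith) hθ0 (by ring)
  · rw [heq]
    have h4 : 0 ≤ θ * Cap.len K q := mul_nonneg hθ0 (Cap.len_nonneg q)
    linarith

/-- The homothetic copies about `o` decrease with the level. -/
theorem M3s_H_anti {P : Set (ℝ × ℝ)} (hPc : Convex ℝ P) {o : ℝ × ℝ} (ho : o ∈ P) {l t t' : ℝ}
    (hl : 0 < l) (htl : t < l) (htt' : t ≤ t') (ht'l : t' ≤ l) :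
    (fun q : ℝ × ℝ => o + (1 - t' / l) • (q - o)) '' P
      ⊆ (fun q : ℝ × ℝ => o + (1 - t / l) • (q - o)) '' P := by
  rintro _ ⟨q, hq, rfl⟩
  have ha : 0 < 1 - t / l := by rw [sub_pos, div_lt_one hl]; exact htl
  have hb : 0 ≤ 1 - t' / l := by rw [sub_nonneg, div_le_one hl]; exact ht'l
  have hba : 1 - t' / l ≤ 1 - t / l := by
    have h5 : t / l ≤ t' / l := div_le_div_of_nonneg_right htt' hl.le
    linarith
  have hρ0 : 0 ≤ (1 - t' / l) / (1 - t / l) := div_nonneg hb ha.le
  have hρ1 : (1 - t' / l) / (1 - t / l) ≤ 1 := by rw [div_le_one ha]; exact hba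
  refine ⟨o + ((1 - t' / l) / (1 - t / l)) • (q - o),
    hPc.add_smul_sub_mem ho hq ⟨hρ0, hρ1⟩, ?_⟩
  have h6 : (1 - t / l) * ((1 - t' / l) / (1 - t / l)) = 1 - t' / l := by
    rw [mul_div_assoc']
    exact mul_div_cancel_left₀ _ ha.ne'
  simp only [add_sub_cancel_left, smul_smul, h6]

/-- Integration of a pointwise lower bound with a gain on a set `J`. -/
theorem M3s_int_lower (g F : ℝ → ENNReal) (l : ℝ) (J : Set ℝ) (hJ : MeasurableSet J)
    (c : ENNReal) (hJ0 : J ⊆ Ioi 0)
    (hpt : ∀ t' ∈ Ioi (0:ℝ),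
      (Ioc 0 l).indicator F t' + J.indicator (fun _ => c) t' ≤ g t') :
    (∫⁻ t' in Ioc 0 l, F t') + c * volume J ≤ ∫⁻ t' in Ioi 0, g t' := by
  calc (∫⁻ t' in Ioc 0 l, F t') + c * volume J
      = (∫⁻ t', (Ioc 0 l).indicator F t') + ∫⁻ t', J.indicator (fun _ => c) t' := by
        rw [lintegral_indicator measurableSet_Ioc, lintegral_indicator hJ, setLIntegral_const]
    _ = ∫⁻ t', ((Ioc 0 l).indicator F t' + J.indicator (fun _ => c) t') := by
        rw [lintegral_add_right _ (measurable_const.indicator hJ)]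
    _ ≤ ∫⁻ t', (Ioi 0).indicator g t' := by
        apply lintegral_mono
        intro t'
        by_cases h : t' ∈ Ioi (0:ℝ)
        · rw [indicator_of_mem h]
          exact hpt t' h
        · have h1 : t' ∉ Ioc 0 l := fun h' => h h'.1
          have h2 : t' ∉ J := fun h' => h (hJ0 h')
          simp [indicator_of_notMem h1, indicator_of_notMem h2]
    _ = ∫⁻ t' in Ioi 0, g t' := lintegral_indicator measurableSet_Ioi _

/-- The strict model bound from one gain point. -/
theorem M3s_model_lt {K : Set (ℝ × (ℝ × ℝ))} (hK : IsCompact K) (hc : Convex ℝ K) {z0 l : ℝ}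
    {o : ℝ × ℝ} (hl : 0 < l) (h0 : (z0, o) ∈ K) (h1 : (z0 + l, o) ∈ K)
    (hP : volume (Prod.snd '' K) ≠ 0)
    (hgain : ∃ y ∈ Prod.snd '' K, ∃ t : ℝ, 0 < t ∧ t < Cap.len K y ∧
      (l ≤ t ∨ ∀ q ∈ Prod.snd '' K, y ≠ o + (1 - t / l) • (q - o))) :
    ENNReal.ofReal l * volume (Prod.snd '' K) < 3 * volume K := by
  obtain ⟨y, hy, t, ht0, hty, hcase⟩ := hgain
  have hPcomp : IsCompact (Prod.snd '' K) := hK.image continuous_snd
  have hPfin : volume (Prod.snd '' K) ≠ ⊤ := hPcomp.measure_lt_top.ne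
  have hPc : Convex ℝ (Prod.snd '' K) := hc.linear_image (LinearMap.snd ℝ ℝ (ℝ × ℝ))
  have ho : o ∈ Prod.snd '' K := ⟨(z0, o), h0, rfl⟩
  have hfy : 0 < Cap.len K y := lt_trans ht0 hty
  have hbase : ∀ t' ∈ Ioc (0:ℝ) l,
      ENNReal.ofReal ((1 - t' / l) ^ 2) * volume (Prod.snd '' K) ≤ volume (Cap.lev K t') := by
    intro t' ht'
    rw [← M3s_vol_hom]
    exact measure_mono (M3s_lev_ge hK hc hl h0 h1 ht'.1.le ht'.2)
  have hθ1pos : 0 < (Cap.len K y - t) / (2 * Cap.len K y) :=
    div_pos (by linarith) (by linarith)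
  have hθ1lt : (Cap.len K y - t) / (2 * Cap.len K y) < 1 := by
    rw [div_lt_one (by linarith)]
    linarith
  have hθ1len : (1 - (Cap.len K y - t) / (2 * Cap.len K y)) * Cap.len K y
      = (t + Cap.len K y) / 2 := by
    field_simp
    ring
  have hgainS : ∀ θ : ℝ, 0 < θ → θ ≤ (Cap.len K y - t) / (2 * Cap.len K y) →
      ∀ t' : ℝ, t' ≤ (t + Cap.len K y) / 2 →
      (fun q : ℝ × ℝ => y + θ • (q - y)) '' (Prod.snd '' K) ⊆ Cap.lev K t' := by
    intro θ hθ0 hθle t' ht'
    apply M3s_gain_sub hK hc hy hθ0.le (by linarith)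
    have h7 : (1 - (Cap.len K y - t) / (2 * Cap.len K y)) * Cap.len K y
        ≤ (1 - θ) * Cap.len K y :=
      mul_le_mul_of_nonneg_right (by linarith) hfy.le
    linarith
  have hSpos : ∀ θ : ℝ, 0 < θ →
      volume ((fun q : ℝ × ℝ => y + θ • (q - y)) '' (Prod.snd '' K)) ≠ 0 := by
    intro θ hθ0
    rw [M3s_vol_hom]
    refine mul_ne_zero ?_ hP
    simp only [ne_eq, ENNReal.ofReal_eq_zero, not_le]
    exact pow_pos hθ0 2
  have key : ∃ (J : Set ℝ) (c : ENNReal), MeasurableSet J ∧ J ⊆ Ioi 0 ∧ volume J ≠ 0 ∧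
      c ≠ 0 ∧ ∀ t' ∈ Ioi (0:ℝ),
        (Ioc 0 l).indicator
            (fun t' => ENNReal.ofReal ((1 - t' / l) ^ 2) * volume (Prod.snd '' K)) t'
          + J.indicator (fun _ => c) t' ≤ volume (Cap.lev K t') := by
    by_cases htl : l ≤ t
    · refine ⟨Ioc l ((t + Cap.len K y) / 2),
        volume ((fun q : ℝ × ℝ => y + ((Cap.len K y - t) / (2 * Cap.len K y)) • (q - y))
          '' (Prod.snd '' K)),
        measurableSet_Ioc, fun x hx => lt_trans hl hx.1, ?_, hSpos _ hθ1pos, ?_⟩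
      · rw [Real.volume_Ioc]
        simp only [ne_eq, ENNReal.ofReal_eq_zero, not_le]
        linarith
      · intro t' ht'
        by_cases hA : t' ∈ Ioc 0 l
        · have hB : t' ∉ Ioc l ((t + Cap.len K y) / 2) := fun h => absurd h.1 (not_lt.2 hA.2)
          rw [indicator_of_mem hA, indicator_of_notMem hB, add_zero]
          exact hbase t' hA
        · by_cases hB : t' ∈ Ioc l ((t + Cap.len K y) / 2)
          · rw [indicator_of_notMem hA, indicator_of_mem hB, zero_add]
            exact measure_mono (hgainS _ hθ1pos le_rfl t' hB.2)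
          · rw [indicator_of_notMem hA, indicator_of_notMem hB, add_zero]
            exact bot_le
    · have htl' : t < l := not_le.1 htl
      have hne := hcase.resolve_left htl
      have hHcl : IsClosed ((fun q : ℝ × ℝ => o + (1 - t / l) • (q - o)) '' (Prod.snd '' K)) :=
        (hPcomp.image (by fun_prop)).isClosed
      have hyH : y ∈ ((fun q : ℝ × ℝ => o + (1 - t / l) • (q - o)) '' (Prod.snd '' K))ᶜ := by
        rintro ⟨q, hq, hqe⟩
        exact hne q hq hqe.symm
      obtain ⟨δ, hδ, hball⟩ := Metric.isOpen_iff.1 hHcl.isOpen_compl y hyH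
      obtain ⟨r, hr⟩ := hPcomp.isBounded.subset_ball y
      have hrpos : 0 < r := by
        have h8 := hr hy
        rwa [Metric.mem_ball, dist_self] at h8
      have hθpos : 0 < min ((Cap.len K y - t) / (2 * Cap.len K y)) (δ / (2 * r)) :=
        lt_min hθ1pos (div_pos hδ (by linarith))
      have hθle : min ((Cap.len K y - t) / (2 * Cap.len K y)) (δ / (2 * r))
          ≤ (Cap.len K y - t) / (2 * Cap.len K y) := min_le_left _ _
      have hθr : min ((Cap.len K y - t) / (2 * Cap.len K y)) (δ / (2 * r)) * r ≤ δ / 2 := by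
        have h9 : min ((Cap.len K y - t) / (2 * Cap.len K y)) (δ / (2 * r)) ≤ δ / (2 * r) :=
          min_le_right _ _
        calc min ((Cap.len K y - t) / (2 * Cap.len K y)) (δ / (2 * r)) * r
            ≤ δ / (2 * r) * r := mul_le_mul_of_nonneg_right h9 hrpos.le
          _ = δ / 2 := by field_simp
      generalize min ((Cap.len K y - t) / (2 * Cap.len K y)) (δ / (2 * r)) = θ
        at hθpos hθle hθr
      have hSball : (fun q : ℝ × ℝ => y + θ • (q - y)) '' (Prod.snd '' K)
          ⊆ Metric.ball y δ := by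
        rintro _ ⟨q, hq, rfl⟩
        have hq' : dist q y < r := hr hq
        rw [Metric.mem_ball, dist_eq_norm, add_sub_cancel_left, norm_smul, Real.norm_eq_abs,
          abs_of_pos hθpos, ← dist_eq_norm]
        have h10 : θ * dist q y ≤ θ * r := mul_le_mul_of_nonneg_left hq'.le hθpos.le
        linarith
      have hSmeas : MeasurableSet ((fun q : ℝ × ℝ => y + θ • (q - y)) '' (Prod.snd '' K)) :=
        (hPcomp.image (by fun_prop)).measurableSet
      refine ⟨Icc t (min ((t + Cap.len K y) / 2) l),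
        volume ((fun q : ℝ × ℝ => y + θ • (q - y)) '' (Prod.snd '' K)),
        measurableSet_Icc, fun x hx => lt_of_lt_of_le ht0 hx.1, ?_, hSpos θ hθpos, ?_⟩
      · rw [Real.volume_Icc]
        simp only [ne_eq, ENNReal.ofReal_eq_zero, not_le, sub_pos, lt_min_iff]
        exact ⟨by linarith, htl'⟩
      · intro t' ht'
        by_cases hB : t' ∈ Icc t (min ((t + Cap.len K y) / 2) l)
        · have ht'l : t' ≤ l := le_trans hB.2 (min_le_right _ _)
          have ht'2 : t' ≤ (t + Cap.len K y) / 2 := le_trans hB.2 (min_le_left _ _)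
          have hA : t' ∈ Ioc 0 l := ⟨ht', ht'l⟩
          rw [indicator_of_mem hA, indicator_of_mem hB, ← M3s_vol_hom]
          have hdisj : Disjoint
              ((fun q : ℝ × ℝ => o + (1 - t' / l) • (q - o)) '' (Prod.snd '' K))
              ((fun q : ℝ × ℝ => y + θ • (q - y)) '' (Prod.snd '' K)) := by
            rw [Set.disjoint_left]
            intro x hx1 hx2
            exact hball (hSball hx2) (M3s_H_anti hPc ho hl htl' hB.1 ht'l hx1)
          rw [← measure_union hdisj hSmeas]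
          exact measure_mono (union_subset (M3s_lev_ge hK hc hl h0 h1 (mem_Ioi.1 ht').le ht'l)
            (hgainS θ hθpos hθle t' ht'2))
        · by_cases hA : t' ∈ Ioc 0 l
          · rw [indicator_of_mem hA, indicator_of_notMem hB, add_zero]
            exact hbase t' hA
          · rw [indicator_of_notMem hA, indicator_of_notMem hB, add_zero]
            exact bot_le
  obtain ⟨J, c, hJm, hJ0, hJpos, hcpos, hpt⟩ := key
  have hint := M3s_int_lower (fun t' => volume (Cap.lev K t'))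
    (fun t' => ENNReal.ofReal ((1 - t' / l) ^ 2) * volume (Prod.snd '' K)) l J hJm c hJ0 hpt
  rw [← Cap.vol_eq hK, lintegral_mul_const' _ _ hPfin, M3s_int l hl] at hint
  have h3 : ENNReal.ofReal l = 3 * ENNReal.ofReal (l / 3) := by
    rw [show (3 : ENNReal) = ENNReal.ofReal 3 by simp, ← ENNReal.ofReal_mul (by norm_num)]
    congr 1
    ring
  have hlt : ENNReal.ofReal (l / 3) * volume (Prod.snd '' K) < volume K :=
    lt_of_lt_of_le (ENNReal.lt_add_right (ENNReal.mul_ne_top ENNReal.ofReal_ne_top hPfin)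
      (mul_ne_zero hcpos hJpos)) hint
  rw [h3, mul_assoc]
  exact ENNReal.mul_lt_mul_right (by norm_num) (by norm_num) hlt

end Vale.Agent.Lib.P243.R3.H34
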